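import Crest.Agent.N255.Dr.Om

/-! Pull back of forms, monomial basis, integration (Stokes, perfect pairing) and the
divided-power exponential `O.E`. -/

set_option autoImplicit false

namespace N255.Dr

open Finset Module

namespace Om
variable {p : ℕ} {K : Type} [CommRing K] {σ τ ρ : Type}

/-- type synonym: forms on the target as an algebra over functions on the source -/
def Via {A : Type} [CommRing A] {K' : Type} [CommRing K'] (_φ : A →+* O p K' τ) : Type :=
  Om p K' τ

noncomputable instance {A : Type} [CommRing A] {K' : Type} [CommRing K'] (φ : A →+* O p K' τ) :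
    Ring (Via φ) := inferInstanceAs (Ring (Om p K' τ))

noncomputable instance {A : Type} [CommRing A] {K' : Type} [CommRing K'] (φ : A →+* O p K' τ) :
    Algebra A (Via φ) :=
  RingHom.toAlgebra' (R := A) (S := Via φ) ((algebraMap (O p K' τ) (Om p K' τ)).comp φ)
    fun c x => Algebra.commutes (A := Om p K' τ) (φ c) x

section Gen
variable {K' : Type} [CommRing K'] [Fintype σ] [DecidableEq σ]

/-- the linear map on one-forms with prescribed values on the `dz i` -/
noncomputable def pbL (φ : O p K σ →+* O p K' τ) (w : σ → τ → O p K' τ) :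
    (σ → O p K σ) →ₗ[O p K σ] Via φ where
  toFun v := (io (∑ i, φ (v i) • w i) : Om p K' τ)
  map_add' a b := by
    simp only [Pi.add_apply, map_add, add_smul, sum_add_distrib]; rfl
  map_smul' c a := by
    have : (io (∑ i, φ ((c • a) i) • w i) : Om p K' τ) = fn (φ c) * io (∑ i, φ (a i) • w i) := by
      rw [fn_mul, ← map_smul, smul_sum]
      simp only [Pi.smul_apply, smul_eq_mul, map_mul, mul_smul]
    exact this

/-- ring map of forms with prescribed values on functions and on the `dz i` -/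
noncomputable def pbR (φ : O p K σ →+* O p K' τ) (w : σ → τ → O p K' τ) :
    Om p K σ →+* Om p K' τ :=
  (ExteriorAlgebra.lift (O p K σ) ⟨pbL φ w, fun _ => io_sq (p := p) (K := K') _⟩ :
    ExteriorAlgebra (O p K σ) (σ → O p K σ) →ₐ[O p K σ] Via φ).toRingHom

omit [DecidableEq σ] in
theorem pbR_fn (φ : O p K σ →+* O p K' τ) (w : σ → τ → O p K' τ) (f : O p K σ) :
    pbR φ w (fn f) = fn (φ f) :=
  (ExteriorAlgebra.lift (O p K σ) ⟨pbL φ w, fun _ => io_sq (p := p) (K := K') _⟩ :
    ExteriorAlgebra (O p K σ) (σ → O p K σ) →ₐ[O p K σ] Via φ).commutes f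

theorem pbR_dz (φ : O p K σ →+* O p K' τ) (w : σ → τ → O p K' τ) (i : σ) :
    pbR φ w (dz i) = io (w i) := by
  have : pbR φ w (dz i) = pbL φ w (Pi.single i 1) :=
    ExteriorAlgebra.lift_ι_apply (O p K σ) (pbL φ w) (fun _ => io_sq (p := p) (K := K') _) _
  rw [this]
  change (io _ : Om p K' τ) = _
  congr 1
  rw [Finset.sum_eq_single i]
  · simp
  · intro j _ hj; simp [Pi.single_eq_of_ne hj]
  · simp

end Gen

section PbAll
variable [Fact ((p : K) = 0)] [Fintype σ] [DecidableEq σ] [Fintype τ] [DecidableEq τ]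
  [Fintype ρ] [DecidableEq ρ]

section Pb
variable {K' : Type} [CommRing K'] [Algebra K K'] [Fact ((p : K') = 0)]

/-- pull back of forms along an algebra map (also allows extension of the coefficients) -/
noncomputable def pb (φ : O p K σ →ₐ[K] O p K' τ) : Om p K σ →ₐ[K] Om p K' τ :=
  { pbR φ.toRingHom fun i j => O.pd j (φ (O.z i)) with
    commutes' := fun c => by
      change pbR _ _ _ = _
      rw [← fn_algebraMap, pbR_fn]
      change fn (φ _) = _
      rw [φ.commutes]
      exact (IsScalarTower.algebraMap_apply _ _ _ _).symm }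

omit [Fact ((p : K) = 0)] [DecidableEq σ] [Fintype τ] [DecidableEq τ] in
@[simp] theorem pb_fn (φ : O p K σ →ₐ[K] O p K' τ) (f : O p K σ) : pb φ (fn f) = fn (φ f) :=
  pbR_fn _ _ f

omit [Fact ((p : K) = 0)] in
@[simp] theorem pb_dz (φ : O p K σ →ₐ[K] O p K' τ) (i : σ) :
    pb φ (dz i) = d (fn (φ (O.z i))) := by
  rw [d_fn_eq_io]; exact pbR_dz _ _ i

omit [Fact ((p : K) = 0)] [DecidableEq σ] [Fintype τ] [DecidableEq τ] in
theorem pb_smul (φ : O p K σ →ₐ[K] O p K' τ) (f : O p K σ) (ω : Om p K σ) :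
    pb φ (f • ω) = φ f • pb φ ω := by
  rw [← fn_mul, map_mul, pb_fn, fn_mul]

omit [Fact ((p : K) = 0)] in
theorem pb_inv (φ : O p K σ →ₐ[K] O p K' τ) (ω : Om p K σ) : pb φ (inv ω) = inv (pb φ ω) := by
  induction ω using induction with
  | hf f => simp
  | hz i => simp
  | hmul a b ha hb => simp only [map_mul, ha, hb]
  | hadd a b ha hb => simp only [map_add, ha, hb]

theorem pb_d_fn (φ : O p K σ →ₐ[K] O p K' τ) (f : O p K σ) :
    pb φ (d (fn f)) = d (fn (φ f)) := by
  have := O.chain φ ((dD : Derivation K' (O p K' τ) (Om p K' τ)).restrictScalars K) f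
  simp only [Derivation.restrictScalars_apply, dD_apply] at this
  rw [this, d_fn, map_sum]
  simp only [pb_smul, pb_dz]

theorem pb_d (φ : O p K σ →ₐ[K] O p K' τ) (ω : Om p K σ) : pb φ (d ω) = d (pb φ ω) := by
  induction ω using induction with
  | hf f => rw [pb_d_fn, pb_fn]
  | hz i => simp
  | hmul a b ha hb => simp only [d_mul, map_mul, map_add, ha, hb, pb_inv]
  | hadd a b ha hb => simp only [map_add, ha, hb]

end Pb

@[simp] theorem pb_id (ω : Om p K σ) : pb (AlgHom.id K (O p K σ)) ω = ω := by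
  have : pb (AlgHom.id K (O p K σ)) = AlgHom.id K _ := ringHom_ext (by simp) (by simp)
  rw [this]; rfl

theorem pb_comp (φ : O p K σ →ₐ[K] O p K τ) (ψ : O p K τ →ₐ[K] O p K ρ) (ω : Om p K σ) :
    pb (ψ.comp φ) ω = pb ψ (pb φ ω) := by
  have : pb (ψ.comp φ) = (pb ψ).comp (pb φ) := ringHom_ext (by simp) (by simp [pb_d])
  rw [this]; rfl

end PbAll

/-! ### monomial forms -/

variable [Fintype σ]

/-- monomial form `z^a dz^S` -/
noncomputable def mon (a : σ → ℕ) (S : Finset σ) : Om p K σ := (O.zm a : O p K σ) • e S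

/-- coefficient of `z^a dz^S` -/
noncomputable def co (a : σ → ℕ) (S : Finset σ) : Om p K σ →ₗ[K] K :=
  O.cf a ∘ₗ (cE S).restrictScalars K

theorem co_apply (a : σ → ℕ) (S : Finset σ) (ω : Om p K σ) : co a S ω = O.cf a (cE S ω) := rfl

theorem mon_eq_zero {a : σ → ℕ} (h : ¬ ∀ i, a i < p) (S : Finset σ) : (mon a S : Om p K σ) = 0 := by
  rw [mon, O.zm_eq_zero h, zero_smul]

theorem co_of_not {a : σ → ℕ} (h : ¬ ∀ i, a i < p) (S : Finset σ) (ω : Om p K σ) :
    co a S ω = 0 := O.cf_of_not h _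

@[simp] theorem mon_zero_empty : (mon 0 ∅ : Om p K σ) = 1 := by simp [mon]

theorem mon_empty (a : σ → ℕ) : (mon a ∅ : Om p K σ) = fn (O.zm a) := by
  rw [mon, e_empty, ← fn_mul, mul_one]

theorem mon_zero (S : Finset σ) : (mon 0 S : Om p K σ) = e S := by simp [mon]

theorem inv_mon (a : σ → ℕ) (S : Finset σ) :
    inv (mon a S : Om p K σ) = (-1 : ℤ) ^ S.card • mon a S := by
  rw [mon, map_smul, inv_e, smul_comm]

theorem ind_mon {P : Om p K σ → Prop} (h0 : P 0)
    (hm : ∀ (c : K) (a : σ → ℕ) (S : Finset σ), (∀ i, a i < p) → P (c • mon a S))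
    (hadd : ∀ a b, P a → P b → P (a + b)) (ω : Om p K σ) : P ω := by
  induction ω using ind_e with
  | h0 => exact h0
  | hadd a b ha hb => exact hadd _ _ ha hb
  | he f S =>
    induction f using O.induction_zm with
    | h0 => simpa using h0
    | hm c a ha => rw [smul_assoc]; exact hm c a S ha
    | hadd f g hf hg => rw [add_smul]; exact hadd _ _ hf hg

theorem lin_ext {M : Type*} [AddCommMonoid M] [Module K M] {f g : Om p K σ →ₗ[K] M}
    (h : ∀ (a : σ → ℕ) (S : Finset σ), (∀ i, a i < p) → f (mon a S) = g (mon a S)) : f = g := by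
  ext x
  induction x using ind_mon with
  | h0 => simp
  | hm c a S ha => simp [h a S ha]
  | hadd a b ha hb => simp [ha, hb]

theorem ext_co {ω η : Om p K σ}
    (h : ∀ (a : σ → ℕ) (S : Finset σ), (∀ i, a i < p) → co a S ω = co a S η) : ω = η :=
  ext_cE fun S => O.ext_cf fun a ha => h a S ha

/-- the monomial basis over `K` -/
noncomputable def bas : Basis ((σ → Fin p) × Finset σ) K (Om p K σ) := O.bas.smulTower eb

theorem bas_apply (x : (σ → Fin p) × Finset σ) :
    (bas x : Om p K σ) = mon (fun i => (x.1 i : ℕ)) x.2 := by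
  rw [bas, Basis.smulTower_apply, O.bas_apply]; rfl

instance : Module.Free K (Om p K σ) := Module.Free.of_basis bas
instance : Module.Finite K (Om p K σ) := by classical exact Module.Finite.of_basis bas

variable [DecidableEq σ]

theorem co_mon (a b : σ → ℕ) (S T : Finset σ) :
    co a S (mon b T : Om p K σ) = if (a = b ∧ S = T) ∧ ∀ i, a i < p then 1 else 0 := by
  rw [co_apply, mon, map_smul, cE_e]
  by_cases h : S = T
  · simp [h, O.cf_zm]
  · simp [h]

theorem bas_repr (ω : Om p K σ) (x : (σ → Fin p) × Finset σ) :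
    bas.repr ω x = co (fun i => (x.1 i : ℕ)) x.2 ω := by
  have : (bas.coord x : Om p K σ →ₗ[K] K) = co (fun i => (x.1 i : ℕ)) x.2 := by
    refine bas.ext fun y => ?_
    rw [Basis.coord_apply, Basis.repr_self, bas_apply, co_mon, Finsupp.single_apply]
    refine if_congr ⟨?_, ?_⟩ rfl rfl
    · rintro rfl; exact ⟨⟨rfl, rfl⟩, fun i => (y.1 i).2⟩
    · rintro ⟨⟨h1, h2⟩, -⟩
      exact Prod.ext (funext fun i => Fin.ext (congrFun h1 i).symm) h2.symm
  exact congrArg (fun L : Om p K σ →ₗ[K] K => L ω) this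

theorem mon_mul (a b : σ → ℕ) (S T : Finset σ) :
    (mon a S : Om p K σ) * mon b T = sg S T • mon (a + b) (S ∪ T) := by
  rw [mon, mon, mon, smul_mul_smul_comm, e_mul, O.zm_add, smul_comm]

theorem sum_co (ω : Om p K σ) : ∑ a ∈ O.box p σ, ∑ S, co a S ω • mon a S = ω := by
  conv_rhs => rw [← sum_cE ω]
  rw [sum_comm]
  refine sum_congr rfl fun S _ => ?_
  conv_rhs => rw [← O.sum_cf (cE S ω), sum_smul]
  simp only [co_apply, mon, smul_assoc]

theorem d_mon [Fact ((p : K) = 0)] (a : σ → ℕ) (S : Finset σ) : d (mon a S : Om p K σ)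
    = ∑ i, (a i * sg {i} S : ℤ) • mon (a - Pi.single i 1) (insert i S) := by
  rw [d_apply]
  refine sum_congr rfl fun i _ => ?_
  rw [mon, pdO_e, O.pd_zm, mul_smul_comm, dz_mul_e, mon, mul_smul, natCast_zsmul, smul_assoc,
    smul_comm (sg {i} S)]

/-! ### integration -/

/-- the top exponent -/
def top (p : ℕ) (σ : Type) : σ → ℕ := fun _ => p - 1

/-- coefficient of the top monomial `∏ z^(p-1) dz` -/
noncomputable def int : Om p K σ →ₗ[K] K := co (top p σ) univ

omit [Fintype σ] [DecidableEq σ] in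
theorem top_lt [hp : Fact p.Prime] (i : σ) : top p σ i < p := by
  have := hp.out.pos
  simp only [top]; omega

theorem int_mon [Fact p.Prime] (a : σ → ℕ) (S : Finset σ) :
    int (mon a S : Om p K σ) = if a = top p σ ∧ S = univ then 1 else 0 := by
  rw [int, co_mon]
  simp only [top_lt, implies_true, and_true, eq_comm]

/-- Stokes -/
theorem int_d [hp : Fact p.Prime] [Fact ((p : K) = 0)] (ω : Om p K σ) : int (d ω) = 0 := by
  induction ω using ind_mon with
  | h0 => simp
  | hadd a b ha hb => simp [ha, hb]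
  | hm c a S ha =>
    rw [map_smul, map_smul, d_mon, map_sum, sum_eq_zero, smul_zero]
    intro i _
    rw [map_zsmul, int_mon]
    split_ifs with h
    · have h1 := congrFun h.1 i
      have h2 := ha i
      have h3 := hp.out.two_le
      simp only [Pi.sub_apply, Pi.single_eq_same, top] at h1
      omega
    · simp

theorem int_d_mul [Fact p.Prime] [Fact ((p : K) = 0)] (ω η : Om p K σ) :
    int (d ω * η) = -int (inv ω * d η) := by
  have := int_d (ω * η)
  rw [d_mul, map_add] at this
  exact eq_neg_of_add_eq_zero_left this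

theorem int_mul_d [Fact p.Prime] [Fact ((p : K) = 0)] (ω η : Om p K σ) :
    int (ω * d η) = -int (d (inv ω) * η) := by
  rw [int_d_mul, inv_inv, neg_neg]

theorem int_mon_mul [Fact p.Prime] (a b : σ → ℕ) (S T : Finset σ) :
    int ((mon a S : Om p K σ) * mon b T)
      = if a + b = top p σ ∧ T = Sᶜ then (sg S Sᶜ : K) else 0 := by
  rw [mon_mul, map_zsmul, int_mon]
  by_cases h : a + b = top p σ ∧ T = Sᶜ
  · obtain ⟨h1, rfl⟩ := h
    simp [h1]
  · rw [if_neg h]
    by_cases hd : Disjoint S T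
    · rw [if_neg, smul_zero]
      rintro ⟨h1, h2⟩
      refine h ⟨h1, ?_⟩
      ext i
      have := Finset.disjoint_left.1 hd
      have h3 : i ∈ S ∪ T := h2 ▸ mem_univ i
      simp only [mem_compl, mem_union] at h3 ⊢
      exact ⟨fun hT hS => this hS hT, fun hS => h3.resolve_left hS⟩
    · rw [sg_of_not hd, zero_smul]

theorem sg_compl_sq (S : Finset σ) : (sg S Sᶜ : K) * (sg S Sᶜ : K) = 1 := by
  rw [← Int.cast_mul, sg_mul_self disjoint_compl_right, Int.cast_one]

/-- pairing with a monomial picks the complementary coefficient -/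
theorem int_mul_mon [Fact p.Prime] (ω : Om p K σ) {a : σ → ℕ} (ha : ∀ i, a i < p)
    (S : Finset σ) : int (ω * mon (top p σ - a) Sᶜ) = (sg S Sᶜ : K) * co a S ω := by
  induction ω using ind_mon with
  | h0 => simp
  | hadd x y hx hy => simp only [add_mul, map_add, hx, hy, mul_add]
  | hm c b T hb =>
    rw [smul_mul_assoc, map_smul, map_smul, int_mon_mul, co_mon]
    by_cases h : a = b ∧ S = T
    · obtain ⟨rfl, rfl⟩ := h
      have : a + (top p σ - a) = top p σ := by
        funext i; have := ha i; simp only [Pi.add_apply, Pi.sub_apply, top]; omega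
      simp [this, ha, mul_comm]
    · rw [if_neg, if_neg fun h' => h h'.1]
      · simp
      · rintro ⟨h1, h2⟩
        refine h ⟨funext fun i => ?_, compl_injective h2⟩
        have := congrFun h1 i
        have := ha i
        simp only [Pi.add_apply, Pi.sub_apply, top] at *
        omega

theorem int_mon_mul' [Fact p.Prime] (ω : Om p K σ) {a : σ → ℕ} (ha : ∀ i, a i < p)
    (S : Finset σ) : int (mon (top p σ - a) Sᶜ * ω) = (sg Sᶜ S : K) * co a S ω := by
  induction ω using ind_mon with
  | h0 => simp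
  | hadd x y hx hy => simp only [mul_add, map_add, hx, hy]
  | hm c b T hb =>
    rw [mul_smul_comm, map_smul, map_smul, int_mon_mul, co_mon, compl_compl]
    by_cases h : a = b ∧ S = T
    · obtain ⟨rfl, rfl⟩ := h
      have : top p σ - a + a = top p σ := by
        funext i; have := ha i; simp only [Pi.add_apply, Pi.sub_apply, top]; omega
      simp [this, ha, mul_comm]
    · rw [if_neg, if_neg fun h' => h h'.1]
      · simp
      · rintro ⟨h1, h2⟩
        refine h ⟨funext fun i => ?_, h2.symm⟩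
        have := congrFun h1 i
        have := ha i
        simp only [Pi.add_apply, Pi.sub_apply, top] at *
        omega

theorem eq_zero_of_int_mul [Fact p.Prime] {ω : Om p K σ} (h : ∀ η, int (ω * η) = 0) : ω = 0 := by
  refine ext_co fun a S ha => ?_
  have := int_mul_mon ω ha S
  rw [h] at this
  rw [map_zero, ← one_mul (co a S ω), ← sg_compl_sq S, mul_assoc, ← this, mul_zero]

theorem eq_zero_of_mul_int [Fact p.Prime] {ω : Om p K σ} (h : ∀ η, int (η * ω) = 0) : ω = 0 := by
  refine ext_co fun a S ha => ?_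
  have := int_mon_mul' ω ha S
  have h2 := sg_compl_sq (K := K) Sᶜ
  rw [compl_compl] at h2
  rw [h] at this
  rw [map_zero, ← one_mul (co a S ω), ← h2, mul_assoc, ← this, mul_zero]

/-- every functional is integration against a form -/
theorem exists_rep [Fact p.Prime] (L : Om p K σ →ₗ[K] K) : ∃ η, ∀ ω, L ω = int (ω * η) := by
  refine ⟨∑ a ∈ O.box p σ, ∑ S, ((sg S Sᶜ : K) * L (mon a S)) • mon (top p σ - a) Sᶜ, fun ω => ?_⟩
  conv_lhs => rw [← sum_co ω]
  simp only [mul_sum, map_sum, mul_smul_comm, map_smul]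
  refine sum_congr rfl fun a ha => sum_congr rfl fun S _ => ?_
  rw [int_mul_mon ω (O.mem_box.1 ha), smul_eq_mul, smul_eq_mul]
  linear_combination (-(co a S ω * L (mon a S))) * sg_compl_sq (K := K) S

end Om

/-! ### the exponential -/

namespace O
variable {p : ℕ} {K : Type} [CommRing K] {σ τ : Type}

open Classical in
/-- divided-power exponential of `W ∈ mx ^ 2` -/
noncomputable def E (W : O p K σ) : O p K σ :=
  if h : W ∈ (mx : Ideal (O p K σ)) ^ 2 then (IsX.ex (p := p) h).choose else 1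

theorem isX_E {W : O p K σ} (h : W ∈ (mx : Ideal (O p K σ)) ^ 2) : IsX p mx W (E W) := by
  rw [E, dif_pos h]; exact (IsX.ex (p := p) h).choose_spec

variable [Fact p.Prime] [Fact ((p : K) = 0)]

theorem E_unit (W : O p K σ) : IsUnit (E W) := by
  by_cases h : W ∈ (mx : Ideal (O p K σ)) ^ 2
  · exact (isX_E h).isUnit p_zero fun _ => pow_p
  · rw [E, dif_neg h]; exact isUnit_one

theorem der_E {R M : Type*} [CommSemiring R] [Algebra R (O p K σ)] [AddCommGroup M]
    [Module (O p K σ) M] [Module R M] (D : Derivation R (O p K σ) M) {W : O p K σ}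
    (h : W ∈ (mx : Ideal (O p K σ)) ^ 2) : D (E W) = E W • D W :=
  (isX_E h).der p_zero (fun _ => pow_p) D

theorem E_sub_one {W : O p K σ} (h : W ∈ (mx : Ideal (O p K σ)) ^ 2) : E W - 1 ∈ mx ^ 2 :=
  (isX_E h).sub_one_mem p_zero

theorem E_sub {W : O p K σ} (h : W ∈ (mx : Ideal (O p K σ)) ^ 2) : E W - 1 - W ∈ mx ^ 4 :=
  (isX_E h).sub_mem p_zero

omit [Fact ((p : K) = 0)] in
theorem aug_eq_one {X : O p K σ} (h : X - 1 ∈ (mx : Ideal (O p K σ)) ^ 2) : aug X = 1 := by
  have := mem_mx.1 (Ideal.pow_le_self (by norm_num) h)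
  rwa [map_sub, map_one, sub_eq_zero] at this

theorem aug_E {W : O p K σ} (h : W ∈ (mx : Ideal (O p K σ)) ^ 2) : aug (E W) = 1 :=
  aug_eq_one (E_sub_one h)

variable [Fintype σ]

/-- uniqueness of the exponential -/
theorem eq_E {W X : O p K σ} (h : W ∈ (mx : Ideal (O p K σ)) ^ 2) (h1 : aug X = 1)
    (hX : ∀ i, pd i X = X * pd i W) : X = E W := by
  obtain ⟨v, hu1⟩ := (E_unit W).exists_right_inv
  have hd : ∀ i, pd i (X * v) = 0 := by
    intro i
    have h2 := congrArg (pd i) hu1
    rw [Derivation.leibniz, der_E _ h, Derivation.map_one_eq_zero] at h2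
    rw [Derivation.leibniz, hX]
    simp only [smul_eq_mul] at h2 ⊢
    linear_combination (X * v) * h2 - (X * pd i v + X * v * pd i W) * hu1
  have h3 := eq_const_of_pd hd
  have h4 : aug v = 1 := by
    have := congrArg aug hu1
    rwa [map_mul, aug_E h, one_mul, map_one] at this
  rw [map_mul, h1, h4, one_mul, map_one] at h3
  linear_combination (E W) * h3 - X * hu1

theorem _root_.N255.Dr.IsX.eq_E {W X : O p K σ} (h : IsX p mx W X) : X = E W :=
  O.eq_E h.mem (aug_eq_one (h.sub_one_mem p_zero))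
    fun i => h.der p_zero (fun _ => pow_p) (pd i)

@[simp] theorem E_zero : E (0 : O p K σ) = 1 := IsX.one.eq_E.symm

theorem E_add {W W' : O p K σ} (h : W ∈ (mx : Ideal (O p K σ)) ^ 2)
    (h' : W' ∈ (mx : Ideal (O p K σ)) ^ 2) : E (W + W') = E W * E W' :=
  ((isX_E h).mul (isX_E h')).eq_E.symm

theorem E_mul_neg {W : O p K σ} (h : W ∈ (mx : Ideal (O p K σ)) ^ 2) : E W * E (-W) = 1 := by
  rw [← E_add h (neg_mem h), add_neg_cancel, E_zero]

theorem E_neg_mul {W : O p K σ} (h : W ∈ (mx : Ideal (O p K σ)) ^ 2) : E (-W) * E W = 1 := by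
  rw [mul_comm, E_mul_neg h]

theorem E_sum {ι : Type*} (s : Finset ι) (W : ι → O p K σ)
    (h : ∀ i ∈ s, W i ∈ (mx : Ideal (O p K σ)) ^ 2) : E (∑ i ∈ s, W i) = ∏ i ∈ s, E (W i) :=
  (IsX.prod s W _ fun i hi => isX_E (h i hi)).eq_E.symm

theorem E_mul {a b : O p K σ} (ha : a ∈ mx) (hb : b ∈ mx) : E (a * b) = tx p (a * b) :=
  (IsX.single ha hb).eq_E.symm

omit [Fintype σ] [Fact ((p : K) = 0)] in
/-- functoriality under any local ring map -/
theorem E_map {K' F : Type} [CommRing K'] [Fact ((p : K') = 0)] [Fintype τ]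
    [FunLike F (O p K σ) (O p K' τ)] [RingHomClass F (O p K σ) (O p K' τ)] (φ : F)
    (hφ : ∀ i, φ (z i) ∈ mx) {W : O p K σ} (h : W ∈ (mx : Ideal (O p K σ)) ^ 2) :
    φ (E W) = E (φ W) :=
  ((isX_E h).map φ fun _ ha => map_mx φ hφ ha).eq_E

end O

theorem Om.d_E {p : ℕ} {K : Type} [CommRing K] {σ : Type} [Fact p.Prime] [Fact ((p : K) = 0)]
    [Fintype σ] [DecidableEq σ] {W : O p K σ} (h : W ∈ (O.mx : Ideal (O p K σ)) ^ 2) :
    Om.d (Om.fn (O.E W)) = O.E W • Om.d (Om.fn W) := O.der_E Om.dD h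

/-- `d (E ω) = E (d ω + dW ∧ ω)` -/
theorem Om.d_E_smul {p : ℕ} {K : Type} [CommRing K] {σ : Type} [Fact p.Prime]
    [Fact ((p : K) = 0)] [Fintype σ] [DecidableEq σ] {W : O p K σ}
    (h : W ∈ (O.mx : Ideal (O p K σ)) ^ 2) (ω : Om p K σ) :
    Om.d (O.E W • ω) = O.E W • (Om.d ω + Om.d (Om.fn W) * ω) := by
  rw [Om.d_smul, Om.d_E h, smul_mul_assoc, smul_add, add_comm]

end N255.Dr
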