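import Crest.Agent.N255.Dr.Wt
import Crest.Agent.N255.Core.Stm

/-! Bridge between the statements of `Core/Stm` and the monomial calculus of `Dr`. -/

set_option autoImplicit false

namespace N255.Dr

open Finset LaurentPolynomial N255.Core

variable {p : ℕ} [Fact p.Prime] {s : Type} [Fintype s] [DecidableEq s]

omit [DecidableEq s] in
theorem core_mu (x : Core.Ix s) : (Core.mu x : Om p (Au p) s) = Om.mu x.1 x.2.1 x.2.2 := rfl

omit [DecidableEq s] in
theorem in_iff {P : Core.Ix s → Prop} {ω : Om p (Au p) s} :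
    In P ω ↔ ω ∈ Om.Su (k := ZMod p) fun j a S => P (j, a, S) := by
  rw [Om.mem_Su]
  exact ⟨fun h j a S hne => h (j, a, S) hne, fun h x hne => h x.1 x.2.1 x.2.2 hne⟩

omit [DecidableEq s] in
theorem wt_eq (wu : ℤ) (wz wd : s → ℤ) (x : Core.Ix s) :
    wt wu wz wd x = gw wu wz wd x.1 x.2.1 x.2.2 := by
  simp [wt, gw, mul_comm]

omit [DecidableEq s] in
theorem in_Sw {wu : ℤ} {wz wd : s → ℤ} {A : ℤ → Prop} {ω : Om p (Au p) s} :
    In (fun x => A (wt wu wz wd x)) ω ↔ ω ∈ Om.Sw (k := ZMod p) wu wz wd A := by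
  rw [in_iff]
  simp only [wt_eq]
  rfl

omit [DecidableEq s] in
theorem in_Fil {wu : ℤ} {wz wd : s → ℤ} {n : ℤ} {ω : Om p (Au p) s} :
    In (fun x => n ≤ wt wu wz wd x) ω ↔ ω ∈ Om.Fil (k := ZMod p) wu wz wd n :=
  in_Sw (A := (n ≤ ·))

theorem lin_eq_cf (v : s) (f : O p (ZMod p) s) : lin v f = O.cf (Pi.single v 1) f := by
  rw [lin, ← O.cf_zero, O.cf_pd]; simp

end N255.Dr
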