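import Crest.Agent.N255.Dr.Tx

/-! The truncated polynomial algebra `O p K σ = K[z_i] / (z_i ^ p)`: generators, universal
property, monomial basis, augmentation, partial derivatives. -/

set_option autoImplicit false

namespace N255.Dr

open Finset MvPolynomial Module

/-- the truncation ideal -/
noncomputable abbrev tI (p : ℕ) (K : Type) [CommRing K] (σ : Type) : Ideal (MvPolynomial σ K) :=
  Ideal.span (Set.range fun i : σ => (X i : MvPolynomial σ K) ^ p)

/-- truncated polynomial algebra -/
def O (p : ℕ) (K : Type) [CommRing K] (σ : Type) : Type := MvPolynomial σ K ⧸ tI p K σ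

namespace O
variable {p : ℕ} {K : Type} [CommRing K] {σ : Type}

noncomputable instance : CommRing (O p K σ) :=
  inferInstanceAs (CommRing (MvPolynomial σ K ⧸ tI p K σ))

noncomputable instance alg {k : Type} [CommSemiring k] [Algebra k K] : Algebra k (O p K σ) :=
  inferInstanceAs (Algebra k (MvPolynomial σ K ⧸ tI p K σ))

instance tower {k : Type} [CommSemiring k] [Algebra k K] : IsScalarTower k K (O p K σ) :=
  inferInstanceAs (IsScalarTower k K (MvPolynomial σ K ⧸ tI p K σ))

/-- the quotient map -/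
noncomputable def mk : MvPolynomial σ K →ₐ[K] O p K σ := Ideal.Quotient.mkₐ K (tI p K σ)

theorem mk_surj : Function.Surjective (mk : MvPolynomial σ K → O p K σ) :=
  Ideal.Quotient.mkₐ_surjective K _

theorem mk_eq_zero {f : MvPolynomial σ K} : (mk f : O p K σ) = 0 ↔ f ∈ tI p K σ :=
  Ideal.Quotient.eq_zero_iff_mem

/-- the variables -/
noncomputable def z (i : σ) : O p K σ := mk (X i)

@[simp] theorem mk_X (i : σ) : (mk (X i) : O p K σ) = z i := rfl

theorem z_pow (i : σ) : (z i : O p K σ) ^ p = 0 := by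
  rw [z, ← map_pow, mk_eq_zero]
  exact Ideal.subset_span ⟨i, rfl⟩

theorem p_zero [h : Fact ((p : K) = 0)] : (p : O p K σ) = 0 := by
  rw [← map_natCast (algebraMap K (O p K σ)), h.out, map_zero]

instance factO [Fact ((p : K) = 0)] : Fact ((p : O p K σ) = 0) := ⟨p_zero⟩

section Lift
variable {B : Type*} [CommRing B] [Algebra K B]

/-- universal property -/
noncomputable def lift (b : σ → B) (hb : ∀ i, b i ^ p = 0) : O p K σ →ₐ[K] B :=
  Ideal.Quotient.liftₐ (tI p K σ) (aeval b) (by
    intro a ha
    have : tI p K σ ≤ RingHom.ker (aeval b : MvPolynomial σ K →ₐ[K] B) := by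
      rw [Ideal.span_le]
      rintro _ ⟨i, rfl⟩
      simp [hb i]
    exact this ha)

theorem lift_mk (b : σ → B) (hb : ∀ i, b i ^ p = 0) (f : MvPolynomial σ K) :
    lift b hb (mk f : O p K σ) = aeval b f := rfl

@[simp] theorem lift_z (b : σ → B) (hb : ∀ i, b i ^ p = 0) (i : σ) :
    lift b hb (z i : O p K σ) = b i := by
  rw [z, lift_mk, aeval_X]

end Lift

theorem induction {P : O p K σ → Prop} (hc : ∀ c : K, P (algebraMap K _ c))
    (hadd : ∀ f g, P f → P g → P (f + g)) (hz : ∀ f i, P f → P (f * z i)) (f : O p K σ) :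
    P f := by
  obtain ⟨g, rfl⟩ := mk_surj f
  induction g using MvPolynomial.induction_on with
  | C a => rw [← algebraMap_eq, AlgHom.commutes]; exact hc a
  | add f g hf hg => rw [map_add]; exact hadd _ _ hf hg
  | mul_X f i hf => rw [map_mul]; exact hz _ _ hf

theorem hom_ext {B : Type*} [Semiring B] [Algebra K B] {f g : O p K σ →ₐ[K] B}
    (h : ∀ i, f (z i) = g (z i)) : f = g := by
  ext x
  induction x using induction with
  | hc c => simp
  | hadd a b ha hb => simp [ha, hb]
  | hz a i ha => simp [ha, h]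

theorem der_ext {M : Type*} [AddCommGroup M] [Module K M] [Module (O p K σ) M]
    [IsScalarTower K (O p K σ) M] {D D' : Derivation K (O p K σ) M}
    (h : ∀ i, D (z i) = D' (z i)) : D = D' := by
  ext x
  induction x using induction with
  | hc c => simp
  | hadd a b ha hb => simp [ha, hb]
  | hz a i ha => simp [ha, h]

/-- base change of coefficients -/
noncomputable def bc (K' : Type) [CommRing K'] [Algebra K K'] : O p K σ →ₐ[K] O p K' σ :=
  lift z z_pow

@[simp] theorem bc_z (K' : Type) [CommRing K'] [Algebra K K'] (i : σ) :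
    bc K' (z i : O p K σ) = z i := lift_z _ _ _

/-- renaming of the variables -/
noncomputable def rn {τ : Type} (f : σ → τ) : O p K σ →ₐ[K] O p K τ :=
  lift (fun i => z (f i)) fun _ => z_pow _

@[simp] theorem rn_z {τ : Type} (f : σ → τ) (i : σ) : rn f (z i : O p K σ) = z (f i) :=
  lift_z _ _ _

/-- the maximal ("augmentation") ideal -/
noncomputable def mx : Ideal (O p K σ) := Ideal.span (Set.range z)

theorem z_mem (i : σ) : (z i : O p K σ) ∈ mx := Ideal.subset_span ⟨i, rfl⟩

theorem map_mx {B F : Type*} [CommRing B] [FunLike F (O p K σ) B] [RingHomClass F (O p K σ) B]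
    (φ : F) {J : Ideal B} (h : ∀ i, φ (z i) ∈ J) {f : O p K σ} (hf : f ∈ mx) : φ f ∈ J := by
  have : (mx : Ideal (O p K σ)) ≤ J.comap φ := by
    rw [mx, Ideal.span_le]
    rintro _ ⟨i, rfl⟩
    exact h i
  exact this hf

theorem map_mx_pow {B F : Type*} [CommRing B] [FunLike F (O p K σ) B]
    [RingHomClass F (O p K σ) B] (φ : F) {J : Ideal B} (h : ∀ i, φ (z i) ∈ J) {n : ℕ}
    {f : O p K σ} (hf : f ∈ mx ^ n) : φ f ∈ J ^ n := by
  have h1 : (mx : Ideal (O p K σ)).map φ ≤ J := Ideal.map_le_iff_le_comap.2 fun _ hf => map_mx φ h hf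
  have h2 := Ideal.mem_map_of_mem φ hf
  rw [Ideal.map_pow] at h2
  exact Ideal.pow_right_mono h1 n h2

theorem pow_p [Fact p.Prime] [Fact ((p : K) = 0)] {f : O p K σ} (hf : f ∈ mx) : f ^ p = 0 :=
  pow_eq_zero_of_mem_span p_zero (by rintro _ ⟨i, rfl⟩; exact z_pow i) hf

/-- substitution `z i ↦ b i` with `b i` in the maximal ideal -/
noncomputable def sub [Fact p.Prime] [Fact ((p : K) = 0)] {τ : Type} (b : σ → O p K τ)
    (hb : ∀ i, b i ∈ mx) : O p K σ →ₐ[K] O p K τ := lift b fun i => pow_p (hb i)

@[simp] theorem sub_z [Fact p.Prime] [Fact ((p : K) = 0)] {τ : Type} (b : σ → O p K τ)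
    (hb : ∀ i, b i ∈ mx) (i : σ) : sub b hb (z i) = b i := lift_z _ _ _

/-- augmentation -/
noncomputable def aug [hp : Fact p.Prime] : O p K σ →ₐ[K] K :=
  lift (fun _ => 0) fun _ => zero_pow hp.out.ne_zero

@[simp] theorem aug_z [Fact p.Prime] (i : σ) : aug (z i : O p K σ) = 0 := lift_z _ _ _

theorem sub_aug_mem [Fact p.Prime] (f : O p K σ) : f - algebraMap K _ (aug f) ∈ mx := by
  induction f using induction with
  | hc c => simp
  | hadd a b ha hb =>
    have := add_mem ha hb
    rw [map_add, map_add]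
    convert this using 1
    ring
  | hz a i _ => simpa using Ideal.mul_mem_left _ _ (z_mem i)

theorem mem_mx [Fact p.Prime] {f : O p K σ} : f ∈ mx ↔ aug f = 0 := by
  constructor
  · intro h
    simpa using map_mx (J := ⊥) (aug : O p K σ →ₐ[K] K) (by simp) h
  · intro h
    simpa [h] using sub_aug_mem f

/-! ### monomials and coefficients -/

/-- descent of a linear map -/
noncomputable def desc {M : Type*} [AddCommGroup M] [Module K M] (L : MvPolynomial σ K →ₗ[K] M)
    (h : ∀ f ∈ tI p K σ, L f = 0) : O p K σ →ₗ[K] M :=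
  ((tI p K σ).restrictScalars K).liftQ L h

theorem desc_mk {M : Type*} [AddCommGroup M] [Module K M] (L : MvPolynomial σ K →ₗ[K] M)
    (h : ∀ f ∈ tI p K σ, L f = 0) (f : MvPolynomial σ K) : desc L h (mk f) = L f := rfl

theorem lcoeff_tI [Fintype σ] {a : σ → ℕ} (h : ∀ i, a i < p) :
    ∀ f ∈ tI p K σ, lcoeff K (Finsupp.equivFunOnFinite.symm a) f = 0 := by
  classical
  intro f hf
  obtain ⟨c, rfl⟩ := (Ideal.mem_span_range_iff_exists_fun).1 hf
  rw [map_sum]
  refine sum_eq_zero fun i _ => ?_
  rw [lcoeff_apply, X_pow_eq_monomial, coeff_mul_monomial', if_neg]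
  intro hle
  have := hle i
  simp only [Finsupp.single_eq_same, Finsupp.equivFunOnFinite_symm_apply_apply] at this
  exact absurd (h i) (by omega)

/-- coefficient functional (zero when some exponent is `≥ p`) -/
noncomputable def cf [Fintype σ] (a : σ → ℕ) : O p K σ →ₗ[K] K :=
  if h : ∀ i, a i < p then desc (lcoeff K (Finsupp.equivFunOnFinite.symm a)) (lcoeff_tI h) else 0

theorem cf_mk [Fintype σ] {a : σ → ℕ} (h : ∀ i, a i < p) (f : MvPolynomial σ K) :
    cf a (mk f : O p K σ) = coeff (Finsupp.equivFunOnFinite.symm a) f := by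
  rw [cf, dif_pos h]; rfl

theorem cf_of_not [Fintype σ] {a : σ → ℕ} (h : ¬ ∀ i, a i < p) (f : O p K σ) : cf a f = 0 := by
  rw [cf, dif_neg h]; rfl

/-- monomial -/
noncomputable def zm [Fintype σ] (a : σ → ℕ) : O p K σ := ∏ i, z i ^ a i

section Mon
variable [Fintype σ]

theorem zm_add (a b : σ → ℕ) : (zm (a + b) : O p K σ) = zm a * zm b := by
  simp [zm, pow_add, prod_mul_distrib]

@[simp] theorem zm_zero : (zm (0 : σ → ℕ) : O p K σ) = 1 := by simp [zm]

theorem zm_single [DecidableEq σ] (i : σ) (n : ℕ) : (zm (Pi.single i n) : O p K σ) = z i ^ n := by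
  rw [zm, Finset.prod_eq_single i]
  · simp
  · intro j _ hj; simp [Pi.single_eq_of_ne hj]
  · simp

theorem zm_eq_zero {a : σ → ℕ} (h : ¬ ∀ i, a i < p) : (zm a : O p K σ) = 0 := by
  push Not at h
  obtain ⟨i, hi⟩ := h
  refine prod_eq_zero (mem_univ i) ?_
  obtain ⟨k, hk⟩ := Nat.exists_eq_add_of_le hi
  rw [hk, pow_add, z_pow, zero_mul]

theorem mk_monomial (a : σ →₀ ℕ) (c : K) : (mk (monomial a c) : O p K σ) = c • zm a := by
  rw [monomial_eq, map_mul, ← algebraMap_eq, AlgHom.commutes, Algebra.smul_def,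
    Finsupp.prod_fintype _ _ (by simp), map_prod]
  simp [zm]

theorem cf_zm [DecidableEq σ] (a b : σ → ℕ) :
    cf a (zm b : O p K σ) = if a = b ∧ ∀ i, a i < p then 1 else 0 := by
  by_cases h : ∀ i, a i < p
  · have : (zm b : O p K σ) = mk (monomial (Finsupp.equivFunOnFinite.symm b) 1) := by
      rw [mk_monomial, one_smul]; rfl
    rw [this, cf_mk h, coeff_monomial]
    simp only [EmbeddingLike.apply_eq_iff_eq, h, implies_true, and_true, eq_comm]
  · rw [cf_of_not h, if_neg fun h' => h h'.2]

/-- the box of admissible exponents -/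
def box (p : ℕ) (σ : Type) [Fintype σ] [DecidableEq σ] : Finset (σ → ℕ) :=
  Fintype.piFinset fun _ => range p

theorem mem_box [DecidableEq σ] {a : σ → ℕ} : a ∈ box p σ ↔ ∀ i, a i < p := by
  simp [box]

theorem induction_zm {P : O p K σ → Prop} (h0 : P 0)
    (hm : ∀ (c : K) (a : σ → ℕ), (∀ i, a i < p) → P (c • zm a))
    (hadd : ∀ f g, P f → P g → P (f + g)) (f : O p K σ) : P f := by
  obtain ⟨g, rfl⟩ := mk_surj f
  induction g using MvPolynomial.induction_on' with
  | monomial a c =>
    rw [mk_monomial]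
    by_cases h : ∀ i, a i < p
    · exact hm _ _ h
    · rw [zm_eq_zero h, smul_zero]; exact h0
  | add f g hf hg => rw [map_add]; exact hadd _ _ hf hg

theorem lin_ext {M : Type*} [AddCommMonoid M] [Module K M] {f g : O p K σ →ₗ[K] M}
    (h : ∀ a : σ → ℕ, (∀ i, a i < p) → f (zm a) = g (zm a)) : f = g := by
  ext x
  induction x using induction_zm with
  | h0 => simp
  | hm c a ha => simp [h a ha]
  | hadd a b ha hb => simp [ha, hb]

theorem sum_cf [DecidableEq σ] (f : O p K σ) : ∑ a ∈ box p σ, cf a f • zm a = f := by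
  induction f using induction_zm with
  | h0 => simp
  | hm c b hb =>
    rw [Finset.sum_eq_single b]
    · simp [cf_zm, hb]
    · intro a _ hab; simp [cf_zm, hab]
    · intro h; exact absurd (mem_box.2 hb) h
  | hadd a b ha hb => simp only [map_add, add_smul, sum_add_distrib, ha, hb]

theorem ext_cf {f g : O p K σ} (h : ∀ a : σ → ℕ, (∀ i, a i < p) → cf a f = cf a g) : f = g := by
  classical
  rw [← sum_cf f, ← sum_cf g]
  exact sum_congr rfl fun a ha => by rw [h a (mem_box.1 ha)]

/-- the monomial basis -/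
noncomputable def bas : Basis (σ → Fin p) K (O p K σ) :=
  Basis.mk (v := fun a => zm fun i => (a i : ℕ))
    (by
      classical
      rw [Fintype.linearIndependent_iff]
      intro c hc a
      have := congrArg (cf fun i => (a i : ℕ)) hc
      rw [map_sum, map_zero, Finset.sum_eq_single a] at this
      · simpa [cf_zm] using this
      · intro b _ hb
        rw [map_smul, cf_zm, if_neg, smul_zero]
        rintro ⟨h, -⟩
        exact hb (funext fun i => Fin.ext (congrFun h i).symm)
      · simp)
    (by
      intro f _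
      induction f using induction_zm with
      | h0 => exact zero_mem _
      | hm c a ha =>
        exact Submodule.smul_mem _ _ (Submodule.subset_span ⟨fun i => ⟨a i, ha i⟩, rfl⟩)
      | hadd a b ha hb => exact add_mem (ha trivial) (hb trivial))

theorem bas_apply (a : σ → Fin p) : (bas a : O p K σ) = zm fun i => (a i : ℕ) := by
  simp [bas]

instance : Module.Free K (O p K σ) := Module.Free.of_basis bas
instance : Module.Finite K (O p K σ) := by classical exact Module.Finite.of_basis bas

theorem zm_mem_pow (a : σ → ℕ) : (zm a : O p K σ) ∈ mx ^ (∑ i, a i) := by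
  rw [zm, ← Finset.prod_pow_eq_pow_sum]
  exact Ideal.prod_mem_prod fun i _ => Ideal.pow_mem_pow (z_mem i) _

theorem cf_zero [hp : Fact p.Prime] (f : O p K σ) : cf 0 f = aug f := by
  classical
  have : (cf 0 : O p K σ →ₗ[K] K) = (aug : O p K σ →ₐ[K] K).toLinearMap := by
    refine lin_ext fun a _ => ?_
    rw [cf_zm]
    by_cases h : 0 = a
    · subst h; simp [hp.out.pos]
    · rw [if_neg fun h' => h h'.1]
      obtain ⟨i, hi⟩ := Function.ne_iff.1 h
      simp only [AlgHom.toLinearMap_apply, zm, map_prod, map_pow, aug_z]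
      exact (prod_eq_zero (mem_univ i) (zero_pow (Ne.symm hi))).symm
  rw [this]; rfl

end Mon

/-! ### partial derivatives -/

section Pd
variable [Fact ((p : K) = 0)]

theorem pderiv_mem (i : σ) {f : MvPolynomial σ K} (hf : f ∈ tI p K σ) :
    pderiv i f ∈ tI p K σ := by
  induction hf using Submodule.span_induction with
  | mem x hx =>
    obtain ⟨j, rfl⟩ := hx
    have : ((p : ℕ) : MvPolynomial σ K) = 0 := by
      rw [← map_natCast (C : K →+* MvPolynomial σ K), (Fact.out : (p : K) = 0), map_zero]
    simp [Derivation.leibniz_pow, this]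
  | zero => simp
  | add x y _ _ hx hy => rw [map_add]; exact add_mem hx hy
  | smul r x hx ih =>
    rw [smul_eq_mul, Derivation.leibniz]
    exact add_mem (Ideal.mul_mem_left _ _ ih) (Ideal.mul_mem_right _ _ hx)

/-- partial derivative, as a linear map -/
noncomputable def pdL (i : σ) : O p K σ →ₗ[K] O p K σ :=
  desc ((mk : MvPolynomial σ K →ₐ[K] O p K σ).toLinearMap ∘ₗ (pderiv i).toLinearMap)
    (fun _ hf => mk_eq_zero.2 (pderiv_mem i hf))

theorem pdL_mk (i : σ) (f : MvPolynomial σ K) : pdL i (mk f : O p K σ) = mk (pderiv i f) := rfl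

/-- partial derivative -/
noncomputable def pd (i : σ) : Derivation K (O p K σ) (O p K σ) :=
  Derivation.mk' (pdL i) (by
    intro a b
    obtain ⟨f, rfl⟩ := mk_surj a
    obtain ⟨g, rfl⟩ := mk_surj b
    rw [← map_mul, pdL_mk, pdL_mk, pdL_mk, Derivation.leibniz]
    simp)

theorem pd_mk (i : σ) (f : MvPolynomial σ K) : pd i (mk f : O p K σ) = mk (pderiv i f) := rfl

theorem pd_z [DecidableEq σ] (i j : σ) : pd i (z j : O p K σ) = if i = j then 1 else 0 := by
  rw [z, pd_mk, pderiv_X]
  by_cases h : i = j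
  · subst h; simp
  · simp [h]

@[simp] theorem pd_z_self (i : σ) : pd i (z i : O p K σ) = 1 := by
  classical simp [pd_z]

theorem pd_z_ne {i j : σ} (h : i ≠ j) : pd i (z j : O p K σ) = 0 := by
  classical simp [pd_z, h]

theorem pd_comm (i j : σ) (f : O p K σ) : pd i (pd j f) = pd j (pd i f) := by
  classical
  induction f using induction with
  | hc c => simp
  | hadd a b ha hb => simp [ha, hb]
  | hz a k ha =>
    simp only [Derivation.leibniz, map_add, smul_eq_mul, ha, pd_z]
    split_ifs <;> simp <;> ring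

variable [Fintype σ]

theorem pd_zm [DecidableEq σ] (i : σ) (a : σ → ℕ) :
    pd i (zm a : O p K σ) = a i • zm (a - Pi.single i 1) := by
  have h : ∀ b : σ → ℕ, (zm b : O p K σ) = mk (monomial (Finsupp.equivFunOnFinite.symm b) 1) :=
    fun b => by rw [mk_monomial, one_smul]; rfl
  rw [h a, pd_mk, pderiv_monomial, mk_monomial, one_mul, Nat.cast_smul_eq_nsmul]
  congr 2
  funext j
  simp [Finsupp.single_apply, Pi.single_apply, eq_comm]

theorem z_mul_pd_zm (i : σ) (a : σ → ℕ) : z i * pd i (zm a : O p K σ) = a i • zm a := by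
  classical
  rw [pd_zm, mul_smul_comm]
  rcases Nat.eq_zero_or_pos (a i) with h | h
  · simp [h]
  · congr 1
    rw [← pow_one (z i), ← zm_single, ← zm_add]
    congr 1
    funext j
    by_cases hj : j = i
    · subst hj; simp; omega
    · simp [Pi.single_eq_of_ne hj]

/-- chain rule / expansion of a derivation -/
theorem der_eq_sum {M : Type*} [AddCommGroup M] [Module K M] [Module (O p K σ) M]
    [IsScalarTower K (O p K σ) M] (D : Derivation K (O p K σ) M) (f : O p K σ) :
    D f = ∑ i, pd i f • D (z i) := by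
  classical
  induction f using induction with
  | hc c => simp
  | hadd a b ha hb => simp [ha, hb, add_smul, sum_add_distrib]
  | hz a k ha =>
    simp only [Derivation.leibniz, ha, smul_eq_mul, add_smul, sum_add_distrib, smul_sum, pd_z,
      smul_smul, mul_ite, mul_one, mul_zero, ite_smul, zero_smul, sum_ite_eq', mem_univ, if_true]

/-- chain rule for an algebra map -/
theorem chain {B M : Type*} [CommRing B] [Algebra K B] [AddCommGroup M] [Module K M] [Module B M]
    [IsScalarTower K B M] (φ : O p K σ →ₐ[K] B) (D : Derivation K B M) (f : O p K σ) :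
    D (φ f) = ∑ i, φ (pd i f) • D (φ (z i)) := by
  classical
  induction f using induction with
  | hc c => simp
  | hadd a b ha hb => simp [ha, hb, add_smul, sum_add_distrib]
  | hz a k ha =>
    simp only [map_mul, Derivation.leibniz, ha, smul_eq_mul, add_smul, sum_add_distrib, smul_sum,
      pd_z, map_add, smul_smul, mul_ite, mul_one, mul_zero, apply_ite φ, map_zero, ite_smul,
      zero_smul, sum_ite_eq', mem_univ, if_true]

theorem cf_pd [DecidableEq σ] (i : σ) (a : σ → ℕ) (f : O p K σ) :
    cf a (pd i f) = (a i + 1) • cf (a + Pi.single i 1) f := by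
  induction f using induction_zm with
  | h0 => simp
  | hadd f g hf hg => simp only [map_add, hf, hg, smul_add]
  | hm c b hb =>
    rw [Derivation.map_smul, map_smul, map_smul, pd_zm, map_nsmul, cf_zm, cf_zm,
      smul_comm (a i + 1) c]
    refine congrArg (c • ·) ?_
    by_cases h : a + Pi.single i 1 = b
    · subst h
      have h1 : a = a + Pi.single i 1 - Pi.single i 1 := by simp
      have h2 : ∀ j, a j < p := fun j => lt_of_le_of_lt (by simp) (hb j)
      rw [if_pos ⟨h1, h2⟩, if_pos ⟨rfl, hb⟩]
      simp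
    · rw [if_neg (c := a + Pi.single i 1 = b ∧ _) (fun h' => h h'.1), smul_zero]
      rcases Nat.eq_zero_or_pos (b i) with h0 | h0
      · simp [h0]
      · rw [if_neg, smul_zero]
        rintro ⟨h', -⟩
        apply h
        subst h'
        funext j
        by_cases hj : j = i
        · subst hj; simp; omega
        · simp [Pi.single_eq_of_ne hj]

/-- `H^0 = K` -/
theorem eq_const_of_pd [hp : Fact p.Prime] {f : O p K σ} (h : ∀ i, pd i f = 0) :
    f = algebraMap K _ (aug f) := by
  classical
  refine ext_cf fun a ha => ?_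
  by_cases h0 : a = 0
  · subst h0; simp [cf_zero]
  · obtain ⟨i, hi⟩ := Function.ne_iff.1 h0
    have hi' : a i ≠ 0 := hi
    have h1 := cf_pd i (a - Pi.single i 1) f
    have h2 : a - Pi.single i 1 + Pi.single i 1 = a := by
      funext j
      by_cases hj : j = i
      · subst hj; simp; omega
      · simp [Pi.single_eq_of_ne hj]
    have h3 : (a - Pi.single i 1 : σ → ℕ) i + 1 = a i := by simp; omega
    rw [h i, map_zero, h2, h3, nsmul_eq_mul] at h1
    have hu := natCast_unit (Fact.out : (p : K) = 0) hi' (ha i)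
    rw [hu.mul_right_eq_zero.1 h1.symm, Algebra.algebraMap_eq_smul_one, map_smul, ← zm_zero,
      cf_zm, if_neg fun h' => h0 h'.1, smul_zero]

end Pd

end O

end N255.Dr
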