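import Crest.Agent.N255.Dr.Pb
import Crest.Agent.N255.Ts.Abs

/-! Forms with coefficients in Laurent polynomials `k[u, u⁻¹]`: the `k`-basis `u^j z^a dz^S`,
spans of monomials, weights. -/

set_option autoImplicit false

namespace N255.Dr

open Finset Module LaurentPolynomial N255.Ts

/-- Laurent polynomials in `u = T 1` -/
abbrev LA (k : Type) [Field k] : Type := LaurentPolynomial k

instance factLA {p : ℕ} {k : Type} [Field k] [h : Fact ((p : k) = 0)] : Fact ((p : LA k) = 0) :=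
  ⟨by rw [← map_natCast (algebraMap k (LA k)), h.out, map_zero]⟩

/-- index set of the monomial basis -/
abbrev Ix (p : ℕ) (σ : Type) : Type := ℤ × ((σ → Fin p) × Finset σ)

/-- coefficient of `u ^ j` -/
noncomputable def cT {k : Type} [Field k] (j : ℤ) : LA k →ₗ[k] k :=
  (AddMonoidAlgebra.basis ℤ k).coord j

theorem cT_apply {k : Type} [Field k] (j : ℤ) (f : LA k) : cT j f = f.coeff j := rfl

theorem cT_T {k : Type} [Field k] (j n : ℤ) : cT j (T n : LA k) = if j = n then 1 else 0 := by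
  have : (T n : LA k) = AddMonoidAlgebra.basis ℤ k n := rfl
  rw [this, cT, Basis.coord_apply, Basis.repr_self, Finsupp.single_apply]
  simp only [eq_comm]

theorem cT_T_mul {k : Type} [Field k] (j n : ℤ) (f : LA k) : cT j (T n * f) = cT (j - n) f := by
  have : cT j ∘ₗ LinearMap.mulLeft k (T n : LA k) = cT (j - n) := by
    refine (AddMonoidAlgebra.basis ℤ k).ext fun m => ?_
    change cT j (T n * T m) = cT (j - n) (T m)
    rw [← T_add, cT_T, cT_T]
    exact if_congr (by omega) rfl rfl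
  exact congrArg (fun L : LA k →ₗ[k] k => L f) this

theorem cT_algebraMap {k : Type} [Field k] (j : ℤ) (c : k) :
    cT j (algebraMap k (LA k) c) = if j = 0 then c else 0 := by
  rw [Algebra.algebraMap_eq_smul_one, map_smul, ← T_zero, cT_T]
  split_ifs <;> simp

theorem ext_cT {k : Type} [Field k] {f g : LA k} (h : ∀ j, cT j f = cT j g) : f = g :=
  (AddMonoidAlgebra.basis ℤ k).ext_elem h

namespace O
variable {p : ℕ} {K : Type} [CommRing K] {σ τ ρ : Type}

theorem map_zm [Fintype σ] {B F : Type*} [CommRing B] [FunLike F (O p K σ) B]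
    [RingHomClass F (O p K σ) B] (φ : F) (a : σ → ℕ) : φ (zm a) = ∏ i, φ (z i) ^ a i := by
  simp [zm, map_prod]

theorem bc_zm [Fintype σ] (K' : Type) [CommRing K'] [Algebra K K'] (a : σ → ℕ) :
    bc K' (zm a : O p K σ) = zm a := by
  simp [zm, map_prod]

theorem cf_bc [Fintype σ] (K' : Type) [CommRing K'] [Algebra K K'] (a : σ → ℕ) (f : O p K σ) :
    cf a (bc K' f) = algebraMap K K' (cf a f) := by
  classical
  induction f using induction_zm with
  | h0 => simp
  | hadd f g hf hg => simp only [map_add, hf, hg]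
  | hm c b _ =>
    rw [map_smul, bc_zm, ← algebraMap_smul K' c, map_smul, map_smul, cf_zm, cf_zm]
    split_ifs <;> simp

theorem bc_mem_pow (K' : Type) [CommRing K'] [Algebra K K'] {n : ℕ} {f : O p K σ}
    (h : f ∈ (mx : Ideal (O p K σ)) ^ n) : bc K' f ∈ (mx : Ideal (O p K' σ)) ^ n :=
  map_mx_pow (bc K') (fun i => by simpa using z_mem i) h

theorem bc_mem (K' : Type) [CommRing K'] [Algebra K K'] {f : O p K σ}
    (h : f ∈ (mx : Ideal (O p K σ))) : bc K' f ∈ (mx : Ideal (O p K' σ)) :=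
  map_mx (bc K') (fun i => by simpa using z_mem i) h

/-- base change of an algebra map -/
noncomputable def bcH (K' : Type) [CommRing K'] [Algebra K K'] (φ : O p K σ →ₐ[K] O p K τ) :
    O p K' σ →ₐ[K'] O p K' τ :=
  lift (fun i => bc K' (φ (z i))) fun i => by
    rw [← map_pow, ← map_pow, z_pow, map_zero, map_zero]

@[simp] theorem bcH_z (K' : Type) [CommRing K'] [Algebra K K'] (φ : O p K σ →ₐ[K] O p K τ)
    (i : σ) : bcH K' φ (z i) = bc K' (φ (z i)) := lift_z _ _ _

@[simp] theorem bcH_bc (K' : Type) [CommRing K'] [Algebra K K'] (φ : O p K σ →ₐ[K] O p K τ)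
    (f : O p K σ) : bcH K' φ (bc K' f) = bc K' (φ f) := by
  have : ((bcH K' φ).restrictScalars K).comp (bc K') = (bc K').comp φ := hom_ext (by simp)
  exact congrArg (fun g : O p K σ →ₐ[K] O p K' τ => g f) this

theorem pd_bc [Fact ((p : K) = 0)] (K' : Type) [CommRing K'] [Algebra K K'] [Fact ((p : K') = 0)]
    (i : σ) (f : O p K σ) : pd i (bc K' f) = bc K' (pd i f) := by
  classical
  induction f using induction with
  | hc c =>
    rw [AlgHom.commutes, IsScalarTower.algebraMap_apply K K', Derivation.map_algebraMap,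
      Derivation.map_algebraMap, map_zero]
  | hadd a b ha hb => simp [ha, hb]
  | hz a j ha => simp [ha, pd_z, apply_ite]

/-- coefficients of low degree vanish on powers of the maximal ideal -/
theorem cf_eq_zero_of_mem_pow [Fintype σ] {n : ℕ} {f : O p K σ}
    (h : f ∈ (mx : Ideal (O p K σ)) ^ n) {a : σ → ℕ} (ha : ∑ i, a i < n) : cf a f = 0 := by
  classical
  have key : ∀ (i : σ) (g : O p K σ) (b : σ → ℕ), cf b (z i * g) ≠ 0 →
      0 < b i ∧ cf (b - Pi.single i 1) g ≠ 0 := by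
    intro i g b hb
    rw [← sum_cf g, mul_sum, map_sum] at hb
    obtain ⟨c, hc, hne⟩ := exists_ne_zero_of_sum_ne_zero hb
    rw [mul_smul_comm, map_smul, ← pow_one (z i), ← zm_single, ← zm_add, cf_zm] at hne
    split_ifs at hne with h1
    · obtain ⟨rfl, -⟩ := h1
      refine ⟨by simp, ?_⟩
      simpa using hne
    · simp at hne
  induction n generalizing f a with
  | zero => omega
  | succ n ih =>
    rw [pow_succ'] at h
    refine Submodule.mul_induction_on (C := fun f => cf a f = 0) h ?_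
      (fun x y hx hy => by rw [map_add, hx, hy, add_zero])
    intro m hm g hg
    induction hm using Submodule.span_induction generalizing g with
    | mem x hx =>
      obtain ⟨i, rfl⟩ := hx
      by_contra hne
      obtain ⟨h1, h2⟩ := key i g a hne
      refine h2 (ih hg ?_)
      have h3 : ∑ j, a j = ∑ j, (a - Pi.single i 1 : σ → ℕ) j + ∑ j, (Pi.single i 1 : σ → ℕ) j := by
        rw [← sum_add_distrib]
        refine sum_congr rfl fun j _ => ?_
        by_cases hj : j = i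
        · subst hj; simp; omega
        · simp [Pi.single_eq_of_ne hj]
      rw [Finset.sum_pi_single', if_pos (mem_univ i)] at h3
      omega
    | zero => simp
    | add x y _ _ hx hy => rw [add_mul, map_add, hx g hg, hy g hg, add_zero]
    | smul r x _ hx =>
      rw [smul_eq_mul, mul_comm r, mul_assoc]
      exact hx _ (Ideal.mul_mem_left _ _ hg)

theorem mem_pow_of_cf [Fintype σ] {n : ℕ} {f : O p K σ}
    (h : ∀ a : σ → ℕ, ∑ i, a i < n → cf a f = 0) : f ∈ (mx : Ideal (O p K σ)) ^ n := by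
  classical
  rw [← sum_cf f]
  refine Ideal.sum_mem _ fun a _ => ?_
  by_cases ha : ∑ i, a i < n
  · rw [h a ha, zero_smul]; exact zero_mem _
  · rw [Algebra.smul_def]
    exact Ideal.mul_mem_left _ _ (Ideal.pow_le_pow_right (not_lt.1 ha) (zm_mem_pow a))

theorem exists_mul_of_two_le [Fintype σ] {a : σ → ℕ} (ha : 2 ≤ ∑ i, a i) :
    ∃ x ∈ (mx : Ideal (O p K σ)), ∃ y ∈ (mx : Ideal (O p K σ)), zm a = x * y := by
  classical
  obtain ⟨i, -, hi⟩ := exists_ne_zero_of_sum_ne_zero (s := univ) (f := a) (by omega)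
  have h1 : a = Pi.single i 1 + (a - Pi.single i 1) := by
    funext j
    by_cases hj : j = i
    · subst hj; simp; omega
    · simp [Pi.single_eq_of_ne hj]
  refine ⟨z i, z_mem i, zm (a - Pi.single i 1), ?_, ?_⟩
  · refine Ideal.pow_le_self ?_ (zm_mem_pow _)
    have h3 := congrArg (fun b : σ → ℕ => ∑ j, b j) h1
    simp only [Pi.add_apply, sum_add_distrib] at h3
    rw [Finset.sum_pi_single', if_pos (mem_univ i)] at h3
    omega
  · conv_lhs => rw [h1, zm_add, zm_single, pow_one]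

/-- the exponential of a monomial -/
theorem E_monomial [Fact p.Prime] [Fact ((p : K) = 0)] [Fintype σ] (c : K) {a : σ → ℕ}
    (ha : 2 ≤ ∑ i, a i) : E (c • zm a : O p K σ) = tx p (c • zm a) := by
  obtain ⟨x, hx, y, hy, h⟩ := exists_mul_of_two_le (p := p) (K := K) ha
  rw [h, ← smul_mul_assoc]
  refine E_mul ?_ hy
  rw [Algebra.smul_def]; exact Ideal.mul_mem_left _ _ hx

end O

namespace Om
variable {p : ℕ} {k : Type} [Field k] {σ τ : Type} [Fintype σ] [Fintype τ]

/-- the monomial `u^j z^a dz^S` -/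
noncomputable def mu (j : ℤ) (a : σ → ℕ) (S : Finset σ) : Om p (LA k) σ := (T j : LA k) • mon a S

/-- the coefficient of `u^j z^a dz^S` -/
noncomputable def cu (j : ℤ) (a : σ → ℕ) (S : Finset σ) : Om p (LA k) σ →ₗ[k] k :=
  cT j ∘ₗ (co a S).restrictScalars k

theorem cu_apply (j : ℤ) (a : σ → ℕ) (S : Finset σ) (ω : Om p (LA k) σ) :
    cu j a S ω = cT j (co a S ω) := rfl

/-- the monomial basis over `k` -/
noncomputable def ub : Basis (Ix p σ) k (Om p (LA k) σ) :=
  (AddMonoidAlgebra.basis ℤ k).smulTower bas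

theorem ub_apply (x : Ix p σ) :
    (ub x : Om p (LA k) σ) = mu x.1 (fun i => (x.2.1 i : ℕ)) x.2.2 := by
  rw [ub, Basis.smulTower_apply, bas_apply]; rfl

theorem ub_repr (ω : Om p (LA k) σ) (x : Ix p σ) :
    ub.repr ω x = cu x.1 (fun i => (x.2.1 i : ℕ)) x.2.2 ω := by
  classical
  rw [ub, Basis.smulTower_repr, bas_repr]; rfl

theorem mu_eq_zero {a : σ → ℕ} (h : ¬ ∀ i, a i < p) (j : ℤ) (S : Finset σ) :
    (mu j a S : Om p (LA k) σ) = 0 := by rw [mu, mon_eq_zero h, smul_zero]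

theorem cu_of_not {a : σ → ℕ} (h : ¬ ∀ i, a i < p) (j : ℤ) (S : Finset σ) (ω : Om p (LA k) σ) :
    cu j a S ω = 0 := by rw [cu_apply, co_of_not h, map_zero]

@[simp] theorem mu_one : (mu 0 0 ∅ : Om p (LA k) σ) = 1 := by simp [mu]

theorem T_smul_mu (n j : ℤ) (a : σ → ℕ) (S : Finset σ) :
    (T n : LA k) • (mu j a S : Om p (LA k) σ) = mu (n + j) a S := by
  rw [mu, mu, smul_smul, T_add]

theorem cu_T_smul (j n : ℤ) (a : σ → ℕ) (S : Finset σ) (ω : Om p (LA k) σ) :
    cu j a S ((T n : LA k) • ω) = cu (j - n) a S ω := by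
  rw [cu_apply, map_smul, smul_eq_mul, cT_T_mul, cu_apply]

theorem inv_mu (j : ℤ) (a : σ → ℕ) (S : Finset σ) :
    inv (mu j a S : Om p (LA k) σ) = (-1 : ℤ) ^ S.card • mu j a S := by
  rw [mu, inv_smul, inv_mon, smul_comm]

theorem ext_cu {ω η : Om p (LA k) σ}
    (h : ∀ j (a : σ → ℕ) S, (∀ i, a i < p) → cu j a S ω = cu j a S η) : ω = η :=
  ext_co fun a S ha => ext_cT fun j => h j a S ha

theorem cu_mu [DecidableEq σ] (j j' : ℤ) (a b : σ → ℕ) (S S' : Finset σ) :
    cu j a S (mu j' b S' : Om p (LA k) σ)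
      = if (j = j' ∧ a = b ∧ S = S') ∧ ∀ i, a i < p then 1 else 0 := by
  rw [mu, cu_T_smul, cu_apply, co_mon]
  by_cases h : (a = b ∧ S = S') ∧ ∀ i, a i < p
  · rw [if_pos h, ← T_zero, cT_T]
    exact if_congr ⟨fun h' => ⟨⟨by omega, h.1⟩, h.2⟩, fun h' => by omega⟩ rfl rfl
  · rw [if_neg h, map_zero, if_neg fun h' => h ⟨h'.1.2, h'.2⟩]

theorem mu_mul [DecidableEq σ] (j j' : ℤ) (a b : σ → ℕ) (S S' : Finset σ) :
    (mu j a S : Om p (LA k) σ) * mu j' b S' = sg S S' • mu (j + j') (a + b) (S ∪ S') := by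
  rw [mu, mu, mu, smul_mul_smul_comm, mon_mul, T_add, smul_comm]

/-- span of the monomials satisfying a predicate -/
noncomputable def Su (P : ℤ → (σ → ℕ) → Finset σ → Prop) : Submodule k (Om p (LA k) σ) :=
  Sp ub {x : Ix p σ | P x.1 (fun i => (x.2.1 i : ℕ)) x.2.2}

variable {P Q R : ℤ → (σ → ℕ) → Finset σ → Prop}

theorem mem_Su {ω : Om p (LA k) σ} :
    ω ∈ Su P ↔ ∀ j (a : σ → ℕ) S, cu j a S ω ≠ 0 → P j a S := by
  rw [Su, mem_Sp]
  constructor
  · intro h j a S hne
    by_contra hP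
    by_cases ha : ∀ i, a i < p
    · exact hne ((ub_repr ω (j, (fun i => ⟨a i, ha i⟩, S))).symm.trans (h _ hP))
    · exact hne (cu_of_not ha _ _ _)
  · intro h x hx
    rw [ub_repr]
    by_contra hne
    exact hx (h _ _ _ hne)

theorem mu_mem {j : ℤ} {a : σ → ℕ} {S : Finset σ} (h : (∀ i, a i < p) → P j a S) :
    (mu j a S : Om p (LA k) σ) ∈ Su P := by
  by_cases ha : ∀ i, a i < p
  · have := basis_mem_Sp (e := (ub : Basis (Ix p σ) k (Om p (LA k) σ)))
      (T := {x : Ix p σ | P x.1 (fun i => (x.2.1 i : ℕ)) x.2.2})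
      (x := (j, (fun i => ⟨a i, ha i⟩, S))) (h ha)
    rwa [ub_apply] at this
  · rw [mu_eq_zero ha]; exact zero_mem _

theorem Su_mono (h : ∀ j a S, (∀ i, a i < p) → P j a S → Q j a S) :
    (Su P : Submodule k (Om p (LA k) σ)) ≤ Su Q :=
  Sp_mono fun x hx => h _ _ _ (fun i => (x.2.1 i).2) hx

theorem mem_Su_true (ω : Om p (LA k) σ) : ω ∈ Su fun _ _ _ => True := mem_Su.2 fun _ _ _ _ => trivial

theorem mem_Su_and {ω : Om p (LA k) σ} (h : ω ∈ Su P) (h' : ω ∈ Su Q) :
    ω ∈ Su fun j a S => P j a S ∧ Q j a S :=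
  mem_Su.2 fun j a S hne => ⟨mem_Su.1 h j a S hne, mem_Su.1 h' j a S hne⟩

theorem Su_ind {C : Om p (LA k) σ → Prop} (h0 : C 0)
    (hm : ∀ (c : k) j (a : σ → ℕ) S, (∀ i, a i < p) → P j a S → C (c • mu j a S))
    (hadd : ∀ a b, C a → C b → C (a + b)) {ω : Om p (LA k) σ} (h : ω ∈ Su P) : C ω := by
  have key : ∀ c : k, C (c • ω) := by
    induction h using Submodule.span_induction with
    | mem x hx =>
      obtain ⟨y, hy, rfl⟩ := hx
      intro c
      rw [ub_apply]
      exact hm c _ _ _ (fun i => (y.2.1 i).2) hy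
    | zero => intro c; rw [smul_zero]; exact h0
    | add x y _ _ hx hy => intro c; rw [smul_add]; exact hadd _ _ (hx c) (hy c)
    | smul r x _ hx => intro c; rw [smul_smul]; exact hx _
  simpa using key 1

theorem Su_le {W : Type*} [AddCommGroup W] [Module k W] {f : Om p (LA k) σ →ₗ[k] W}
    {N : Submodule k W} (h : ∀ j (a : σ → ℕ) S, (∀ i, a i < p) → P j a S → f (mu j a S) ∈ N)
    {ω : Om p (LA k) σ} (hω : ω ∈ Su P) : f ω ∈ N :=
  Su_ind (C := fun ω => f ω ∈ N) (by simp)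
    (fun c j a S ha hP => by rw [map_smul]; exact N.smul_mem c (h j a S ha hP))
    (fun a b ha hb => by rw [map_add]; exact N.add_mem ha hb) hω

theorem Su_mul [DecidableEq σ]
    (h : ∀ j a S j' a' S', P j a S → Q j' a' S' → Disjoint S S' → (∀ i, a i + a' i < p) →
      R (j + j') (a + a') (S ∪ S')) {ω η : Om p (LA k) σ} (hω : ω ∈ Su P) (hη : η ∈ Su Q) :
    ω * η ∈ Su R := by
  refine Su_le (f := LinearMap.mulRight k η) (fun j a S _ hP => ?_) hω
  refine Su_le (f := LinearMap.mulLeft k (mu j a S)) (fun j' a' S' _ hQ => ?_) hη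
  rw [LinearMap.mulLeft_apply, mu_mul]
  by_cases hd : Disjoint S S'
  · exact zsmul_mem (mu_mem fun ha => h _ _ _ _ _ _ hP hQ hd ha) _
  · rw [sg_of_not hd, zero_smul]; exact zero_mem _

theorem Su_T (n : ℤ) (h : ∀ j a S, P j a S → Q (n + j) a S) {ω : Om p (LA k) σ}
    (hω : ω ∈ Su P) : (T n : LA k) • ω ∈ Su Q :=
  mem_Su.2 fun j a S hne => by
    rw [cu_T_smul] at hne
    simpa using h _ _ _ (mem_Su.1 hω _ _ _ hne)

theorem Su_inv {ω : Om p (LA k) σ} (hω : ω ∈ Su P) : inv ω ∈ Su P :=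
  Su_le (f := (inv.toLinearMap : Om p (LA k) σ →ₗ[O p (LA k) σ] _).restrictScalars k)
    (fun j a S _ hP => by
      change inv (mu j a S) ∈ _
      rw [inv_mu]; exact zsmul_mem (mu_mem fun _ => hP) _) hω

theorem d_mu [DecidableEq σ] [Fact ((p : k) = 0)] (j : ℤ) (a : σ → ℕ) (S : Finset σ) :
    d (mu j a S : Om p (LA k) σ)
      = ∑ i, (a i * sg {i} S : ℤ) • mu j (a - Pi.single i 1) (insert i S) := by
  rw [mu, map_smul, d_mon, smul_sum]
  exact sum_congr rfl fun i _ => smul_comm _ _ _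

theorem Su_d [DecidableEq σ] [Fact ((p : k) = 0)]
    (h : ∀ j a S i, P j a S → 0 < a i → i ∉ S → Q j (a - Pi.single i 1) (insert i S))
    {ω : Om p (LA k) σ} (hω : ω ∈ Su P) : d ω ∈ Su Q := by
  refine Su_le (f := (d : Om p (LA k) σ →ₗ[LA k] _).restrictScalars k) (fun j a S _ hP => ?_) hω
  change d (mu j a S) ∈ _
  rw [d_mu]
  refine sum_mem fun i _ => ?_
  by_cases h1 : 0 < a i
  · by_cases h2 : i ∈ S
    · rw [sg_of_not (by simpa using h2)]; simp
    · exact zsmul_mem (mu_mem fun _ => h _ _ _ _ hP h1 h2) _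
  · have : a i = 0 := by omega
    simp [this]

theorem co_fn [DecidableEq σ] {K : Type} [CommRing K] (a : σ → ℕ) (S : Finset σ) (f : O p K σ) :
    co a S (fn f) = if S = ∅ then O.cf a f else 0 := by
  rw [← mul_one (fn f), fn_mul, ← e_empty, co_apply, map_smul, cE_e]
  split_ifs <;> simp

theorem fn_mem_Su {f : O p (LA k) σ} :
    fn f ∈ Su P ↔ ∀ j a, cT j (O.cf a f) ≠ 0 → P j a ∅ := by
  classical
  rw [mem_Su]
  constructor
  · intro h j a hne
    exact h j a ∅ (by rwa [cu_apply, co_fn, if_pos rfl])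
  · intro h j a S hne
    rw [cu_apply, co_fn] at hne
    split_ifs at hne with hS
    · subst hS; exact h j a hne
    · simp at hne

theorem fn_bc_mem {f : O p k σ} (h : ∀ a, O.cf a f ≠ 0 → P 0 a ∅) :
    fn (O.bc (LA k) f) ∈ Su P :=
  fn_mem_Su.2 fun j a hne => by
    rw [O.cf_bc, cT_algebraMap] at hne
    split_ifs at hne with hj
    · subst hj; exact h a hne
    · exact absurd rfl hne

theorem d_fn_bc_mem [DecidableEq σ] [Fact ((p : k) = 0)] {f : O p k σ}
    (h : ∀ a i, O.cf a f ≠ 0 → 0 < a i → P 0 (a - Pi.single i 1) {i}) :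
    d (fn (O.bc (LA k) f)) ∈ Su P := by
  refine Su_d (P := fun j a S => j = 0 ∧ O.cf a f ≠ 0 ∧ S = ∅) ?_
    (fn_bc_mem fun a ha => ⟨rfl, ha, rfl⟩)
  rintro j a S i ⟨rfl, h1, rfl⟩ h2 -
  exact h a i h1 h2

theorem fn_T_smul (j : ℤ) (a : σ → ℕ) :
    fn ((T j : LA k) • (O.zm a : O p (LA k) σ)) = mu j a ∅ := by
  rw [fn_smul, mu, mon_empty]

theorem mu_z [DecidableEq σ] (i : σ) :
    (mu 0 (Pi.single i 1) ∅ : Om p (LA k) σ) = fn (O.z i) := by
  rw [mu, T_zero, one_smul, mon_empty, O.zm_single, pow_one]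

theorem mu_dz [DecidableEq σ] (i : σ) : (mu 0 0 {i} : Om p (LA k) σ) = dz i := by
  rw [mu, T_zero, one_smul, mon_zero, e_single]

theorem mu_T (j : ℤ) : (mu j 0 ∅ : Om p (LA k) σ) = algebraMap (LA k) _ (T j) := by
  rw [mu, mon_zero_empty, Algebra.algebraMap_eq_smul_one]

/-- the projection onto the monomials satisfying a predicate -/
noncomputable def pu (P : ℤ → (σ → ℕ) → Finset σ → Prop) : Om p (LA k) σ →ₗ[k] Om p (LA k) σ :=
  pr ub {x : Ix p σ | P x.1 (fun i => (x.2.1 i : ℕ)) x.2.2}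

open Classical in
theorem cu_pu (j : ℤ) (a : σ → ℕ) (S : Finset σ) (ω : Om p (LA k) σ) :
    cu j a S (pu P ω) = if P j a S then cu j a S ω else 0 := by
  by_cases ha : ∀ i, a i < p
  · have := repr_pr (ub : Basis (Ix p σ) k (Om p (LA k) σ))
      {x : Ix p σ | P x.1 (fun i => (x.2.1 i : ℕ)) x.2.2} ω (j, (fun i => ⟨a i, ha i⟩, S))
    rw [ub_repr, ub_repr] at this
    exact this.trans (if_congr Iff.rfl rfl rfl)
  · simp [cu_of_not ha]

theorem pu_mem (ω : Om p (LA k) σ) : pu P ω ∈ Su P := pr_mem _ _ _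

theorem sub_pu_mem (ω : Om p (LA k) σ) : ω - pu P ω ∈ Su fun j a S => ¬ P j a S :=
  sub_pr_mem _ _ _

theorem pu_of_mem {ω : Om p (LA k) σ} (h : ω ∈ Su P) : pu P ω = ω := pr_of_mem h

theorem pu_of_not {ω : Om p (LA k) σ} (h : ω ∈ Su fun j a S => ¬ P j a S) : pu P ω = 0 :=
  pr_of_mem_compl h

theorem pu_mem_and {ω : Om p (LA k) σ} (h : ω ∈ Su Q) :
    pu P ω ∈ Su fun j a S => P j a S ∧ Q j a S := pr_mem_inter h

/-- integral: the coefficient of `u ^ j` in `int` -/
theorem cT_int (j : ℤ) (ω : Om p (LA k) σ) : cT j (int ω) = cu j (top p σ) univ ω := rfl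

theorem cT_int_eq_zero {j : ℤ} {ω : Om p (LA k) σ} (h : ω ∈ Su P) (hP : ¬ P j (top p σ) univ) :
    cT j (int ω) = 0 := by
  by_contra hne
  exact hP (mem_Su.1 h _ _ _ hne)

theorem int_mu_mul [DecidableEq σ] [Fact p.Prime] (j j' : ℤ) (a b : σ → ℕ) (S S' : Finset σ) :
    int ((mu j a S : Om p (LA k) σ) * mu j' b S')
      = if a + b = top p σ ∧ S' = Sᶜ then sg S Sᶜ • (T (j + j') : LA k) else 0 := by
  rw [mu, mu, smul_mul_smul_comm, map_smul, int_mon_mul, T_add]
  split_ifs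
  · rw [smul_eq_mul, zsmul_eq_mul, mul_comm]
  · rw [smul_zero]

end Om

end N255.Dr
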