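import Mathlib

/-! Truncated exponentials in characteristic `p` and the divided-power exponential on `m ^ 2`
as an inductive relation (abstract commutative algebra). -/

set_option autoImplicit false

namespace N255.Dr

open Finset

variable {A : Type*} [CommRing A]

/-- a natural number inverse to `n !` modulo `p` -/
noncomputable def ic (p n : ℕ) : ℕ := ((n.factorial : ZMod p)⁻¹).val

/-- truncated exponential `∑_{n<p} x^n / n!` -/
noncomputable def tx (p : ℕ) (x : A) : A := ∑ n ∈ range p, (ic p n : A) * x ^ n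

theorem cast_eq_of_zmod {p : ℕ} (hp : (p : A) = 0) {a b : ℕ} (h : (a : ZMod p) = b) :
    (a : A) = b := by
  rw [ZMod.natCast_eq_natCast_iff] at h
  obtain ⟨k, hk⟩ := h.dvd
  have h2 : ((b : ℤ) : A) - ((a : ℤ) : A) = ((p : ℤ) : A) * (k : A) := by
    rw [← Int.cast_sub, hk, Int.cast_mul]
  simp only [Int.cast_natCast, hp, zero_mul] at h2
  exact (sub_eq_zero.1 h2).symm

theorem natCast_unit {p : ℕ} [hpp : Fact p.Prime] (hp : (p : A) = 0) {n : ℕ} (h0 : n ≠ 0)
    (hn : n < p) : IsUnit (n : A) := by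
  have hne : (n : ZMod p) ≠ 0 := by
    rw [Ne, ZMod.natCast_eq_zero_iff]
    exact Nat.not_dvd_of_pos_of_lt (Nat.pos_of_ne_zero h0) hn
  refine IsUnit.of_mul_eq_one (((n : ZMod p)⁻¹).val : A) ?_
  rw [← Nat.cast_mul, ← Nat.cast_one]
  apply cast_eq_of_zmod hp
  rw [Nat.cast_mul, ZMod.natCast_zmod_val, mul_inv_cancel₀ hne, Nat.cast_one]

theorem ic_mul_fact {p : ℕ} [hpp : Fact p.Prime] (hp : (p : A) = 0) {n : ℕ} (hn : n < p) :
    (ic p n : A) * (n.factorial : A) = 1 := by
  have hne : (n.factorial : ZMod p) ≠ 0 := by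
    rw [Ne, ZMod.natCast_eq_zero_iff, hpp.out.dvd_factorial]
    omega
  rw [← Nat.cast_mul, ← Nat.cast_one]
  apply cast_eq_of_zmod hp
  rw [Nat.cast_mul, ic, ZMod.natCast_zmod_val, inv_mul_cancel₀ hne, Nat.cast_one]

theorem ic_zero {p : ℕ} [hpp : Fact p.Prime] (hp : (p : A) = 0) : (ic p 0 : A) = 1 := by
  simpa using ic_mul_fact hp hpp.out.pos

theorem ic_one {p : ℕ} [hpp : Fact p.Prime] (hp : (p : A) = 0) : (ic p 1 : A) = 1 := by
  simpa using ic_mul_fact hp hpp.out.one_lt

theorem ic_succ {p : ℕ} [hpp : Fact p.Prime] (hp : (p : A) = 0) {n : ℕ} (hn : n + 1 < p) :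
    (ic p (n + 1) : A) * ((n + 1 : ℕ) : A) = ic p n := by
  have h1 := ic_mul_fact hp hn
  have h2 := ic_mul_fact hp (n := n) (by omega)
  rw [Nat.factorial_succ, Nat.cast_mul] at h1
  calc (ic p (n + 1) : A) * ((n + 1 : ℕ) : A)
      = (ic p (n + 1) : A) * ((n + 1 : ℕ) : A) * ((ic p n : A) * (n.factorial : A)) := by
        rw [h2, mul_one]
    _ = ((ic p (n + 1) : A) * (((n + 1 : ℕ) : A) * (n.factorial : A))) * (ic p n : A) := by ring
    _ = ic p n := by rw [h1, one_mul]

theorem map_tx {B F : Type*} [CommRing B] [FunLike F A B] [RingHomClass F A B] (φ : F) (p : ℕ)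
    (x : A) : φ (tx p x) = tx p (φ x) := by
  simp [tx, map_sum]

theorem tx_mem {S : Type*} [SetLike S A] [SubsemiringClass S A] (s : S) (p : ℕ) {x : A}
    (hx : x ∈ s) : tx p x ∈ s :=
  sum_mem fun _ _ => mul_mem (natCast_mem s _) (pow_mem hx _)

/-- `tx x = 1 + x + x^2 * r` with `r` in any subsemiring containing `x` -/
theorem tx_eq {p : ℕ} [hpp : Fact p.Prime] (hp : (p : A) = 0) (x : A) :
    tx p x = 1 + x + x ^ 2 * ∑ n ∈ range (p - 2), (ic p (n + 2) : A) * x ^ n := by
  obtain ⟨q, hq⟩ : ∃ q, p = q + 2 := ⟨p - 2, by have := hpp.out.two_le; omega⟩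
  have h0 := ic_zero hp
  have h1 := ic_one hp
  unfold tx
  have : p - 2 = q := by omega
  rw [this]
  conv_lhs => rw [show range p = range (q + 2) by rw [hq]]
  rw [sum_range_succ', sum_range_succ', h0, zero_add, h1, mul_sum]
  have : ∀ k ∈ range q, (ic p (k + 1 + 1) : A) * x ^ (k + 1 + 1)
      = x ^ 2 * ((ic p (k + 2) : A) * x ^ k) := fun k _ => by ring
  rw [sum_congr rfl this]
  ring

theorem tx_zero {p : ℕ} [hpp : Fact p.Prime] (hp : (p : A) = 0) : tx p (0 : A) = 1 := by
  rw [tx_eq hp]; simp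

theorem tx_sub_mem {p : ℕ} [hpp : Fact p.Prime] (hp : (p : A) = 0) {J : Ideal A} {x : A}
    (hx : x ∈ J) : tx p x - 1 - x ∈ J ^ 2 := by
  rw [tx_eq hp]
  have : ∀ r : A, 1 + x + x ^ 2 * r - 1 - x = x ^ 2 * r := fun r => by ring
  rw [this]
  exact Ideal.mul_mem_right _ _ (Ideal.pow_mem_pow hx 2)

theorem tx_sub_one_mem {p : ℕ} [hpp : Fact p.Prime] (hp : (p : A) = 0) {J : Ideal A} {x : A}
    (hx : x ∈ J) : tx p x - 1 ∈ J := by
  have h := Ideal.pow_le_self (I := J) (n := 2) (by norm_num) (tx_sub_mem hp hx)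
  have := J.add_mem h hx
  simpa using this

section Der
variable {R M : Type*} [CommSemiring R] [Algebra R A] [AddCommGroup M] [Module A M] [Module R M]

theorem der_tx {p : ℕ} [hpp : Fact p.Prime] (hp : (p : A) = 0) (D : Derivation R A M) {x : A}
    (hx : x ^ (p - 1) • D x = 0) : D (tx p x) = tx p x • D x := by
  obtain ⟨q, hq⟩ : ∃ q, p = q + 1 := ⟨p - 1, by have := hpp.out.pos; omega⟩
  have hq' : p - 1 = q := by omega
  rw [hq'] at hx
  have hr : range p = range (q + 1) := by rw [hq]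
  have hl : D (tx p x) = ∑ n ∈ range q, ((ic p n : A) * x ^ n) • D x := by
    unfold tx
    rw [hr, sum_range_succ', map_add, map_sum]
    have h0 : D ((ic p 0 : A) * x ^ 0) = 0 := by
      rw [pow_zero, mul_one, Derivation.map_natCast]
    rw [h0, add_zero]
    refine sum_congr rfl fun n hn => ?_
    have hn' : n + 1 < p := by have := mem_range.1 hn; omega
    rw [Derivation.leibniz, Derivation.map_natCast, smul_zero, add_zero, Derivation.leibniz_pow,
      ← ic_succ hp hn', Nat.add_sub_cancel, ← Nat.cast_smul_eq_nsmul A, smul_smul, smul_smul]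
  rw [hl]
  unfold tx
  rw [hr, sum_range_succ, add_smul, mul_smul (ic p q : A), hx, smul_zero, add_zero, sum_smul]

theorem pow_smul_der {p : ℕ} (hp : 0 < p) (D : Derivation R A M) {a b : A} (ha : a ^ p = 0)
    (hb : b ^ p = 0) : (a * b) ^ (p - 1) • D (a * b) = 0 := by
  obtain ⟨q, rfl⟩ : ∃ q, p = q + 1 := ⟨p - 1, by omega⟩
  rw [Nat.add_sub_cancel, Derivation.leibniz, smul_add, smul_smul, smul_smul]
  have h1 : (a * b) ^ q * a = a ^ (q + 1) * b ^ q := by ring
  have h2 : (a * b) ^ q * b = a ^ q * b ^ (q + 1) := by ring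
  rw [h1, h2, ha, hb]; simp

end Der

/-- `IsX p m W E`: `E` is a divided-power exponential of `W ∈ m ^ 2`. -/
inductive IsX (p : ℕ) (m : Ideal A) : A → A → Prop
  | one : IsX p m 0 1
  | step {W E a b : A} : a ∈ m → b ∈ m → IsX p m W E → IsX p m (W + a * b) (E * tx p (a * b))

namespace IsX
variable {p : ℕ} {m : Ideal A}

theorem mul {W E W' E' : A} (h : IsX p m W E) (h' : IsX p m W' E') :
    IsX p m (W + W') (E * E') := by
  induction h' with
  | one => simpa using h
  | step ha hb _ ih =>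
    have := step ha hb ih
    rwa [add_assoc, mul_assoc] at this

theorem single {a b : A} (ha : a ∈ m) (hb : b ∈ m) : IsX p m (a * b) (tx p (a * b)) := by
  simpa using step (p := p) ha hb one

theorem ex {W : A} (hW : W ∈ m ^ 2) : ∃ E, IsX p m W E := by
  rw [pow_two] at hW
  refine Submodule.mul_induction_on hW (fun a ha b hb => ⟨_, single ha hb⟩) ?_
  rintro x y ⟨E, hE⟩ ⟨E', hE'⟩
  exact ⟨_, hE.mul hE'⟩

theorem prod {ι : Type*} (s : Finset ι) (W E : ι → A) (h : ∀ i ∈ s, IsX p m (W i) (E i)) :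
    IsX p m (∑ i ∈ s, W i) (∏ i ∈ s, E i) := by
  classical
  induction s using Finset.induction_on with
  | empty => simpa using one
  | insert i s hi ih =>
    rw [sum_insert hi, prod_insert hi]
    exact (h i (mem_insert_self _ _)).mul (ih fun j hj => h j (mem_insert_of_mem hj))

theorem mem {W E : A} (h : IsX p m W E) : W ∈ m ^ 2 := by
  induction h with
  | one => exact zero_mem _
  | step ha hb _ ih => exact add_mem ih (by rw [pow_two]; exact Ideal.mul_mem_mul ha hb)

theorem map {B F : Type*} [CommRing B] [FunLike F A B] [RingHomClass F A B] (φ : F)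
    {m' : Ideal B} (hφ : ∀ a ∈ m, φ a ∈ m') {W E : A} (h : IsX p m W E) :
    IsX p m' (φ W) (φ E) := by
  induction h with
  | one => simpa using one
  | step ha hb _ ih =>
    have := step (hφ _ ha) (hφ _ hb) ih
    simpa [map_tx] using this

theorem der {R M : Type*} [CommSemiring R] [Algebra R A] [AddCommGroup M] [Module A M]
    [Module R M] [hpp : Fact p.Prime] (hp : (p : A) = 0) (hm : ∀ a ∈ m, a ^ p = 0)
    (D : Derivation R A M) {W E : A} (h : IsX p m W E) : D E = E • D W := by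
  induction h with
  | one => simp
  | @step W E a b ha hb _ ih =>
    rw [Derivation.leibniz, ih, der_tx hp D (pow_smul_der hpp.out.pos D (hm _ ha) (hm _ hb)),
      map_add, smul_add, smul_smul, smul_smul, add_comm, mul_comm (tx p (a * b)) E]

theorem sub_one_mem [hpp : Fact p.Prime] (hp : (p : A) = 0) {W E : A} (h : IsX p m W E) :
    E - 1 ∈ m ^ 2 := by
  induction h with
  | one => simp
  | @step W E a b ha hb _ ih =>
    have h1 : tx p (a * b) - 1 ∈ m ^ 2 :=
      tx_sub_one_mem hp (by rw [pow_two]; exact Ideal.mul_mem_mul ha hb)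
    have : E * tx p (a * b) - 1 = E * (tx p (a * b) - 1) + (E - 1) := by ring
    rw [this]
    exact add_mem (Ideal.mul_mem_left _ _ h1) ih

theorem sub_mem [hpp : Fact p.Prime] (hp : (p : A) = 0) {W E : A} (h : IsX p m W E) :
    E - 1 - W ∈ m ^ 4 := by
  induction h with
  | one => simp
  | @step W E a b ha hb h ih =>
    have hab : a * b ∈ m ^ 2 := by rw [pow_two]; exact Ideal.mul_mem_mul ha hb
    have h1 : tx p (a * b) - 1 ∈ m ^ 2 := tx_sub_one_mem hp hab
    have h2 : tx p (a * b) - 1 - a * b ∈ m ^ 4 := by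
      have := tx_sub_mem hp hab
      rwa [← pow_mul] at this
    have h3 : (E - 1) * (tx p (a * b) - 1) ∈ m ^ 4 := by
      have := Ideal.mul_mem_mul (h.sub_one_mem hp) h1
      rwa [← pow_add] at this
    have : E * tx p (a * b) - 1 - (W + a * b)
        = (E - 1) * (tx p (a * b) - 1) + (E - 1 - W) + (tx p (a * b) - 1 - a * b) := by ring
    rw [this]
    exact add_mem (add_mem h3 ih) h2

theorem isUnit_tx [hpp : Fact p.Prime] (hp : (p : A) = 0) {x : A} (hx : IsNilpotent x) :
    IsUnit (tx p x) := by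
  have h : tx p x - 1 ∈ Ideal.span {x} := tx_sub_one_mem hp (Ideal.mem_span_singleton_self x)
  obtain ⟨r, hr⟩ := Ideal.mem_span_singleton'.1 h
  have hn : IsNilpotent (r * x) := (Commute.all r x).isNilpotent_mul_left hx
  have : tx p x = 1 + r * x := by rw [hr]; ring
  rw [this]
  exact hn.isUnit_one_add

theorem isUnit [hpp : Fact p.Prime] (hp : (p : A) = 0) (hm : ∀ a ∈ m, a ^ p = 0) {W E : A}
    (h : IsX p m W E) : IsUnit E := by
  induction h with
  | one => exact isUnit_one
  | @step W E a b ha hb _ ih =>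
    refine ih.mul (isUnit_tx hp ⟨p, ?_⟩)
    rw [mul_pow, hm _ ha, zero_mul]

end IsX

/-- in characteristic `p`, an ideal generated by elements with `z ^ p = 0` is killed by
Frobenius. -/
theorem pow_eq_zero_of_mem_span {p : ℕ} [hpp : Fact p.Prime] (hp : (p : A) = 0) {s : Set A}
    (hs : ∀ z ∈ s, z ^ p = 0) {a : A} (ha : a ∈ Ideal.span s) : a ^ p = 0 := by
  induction ha using Submodule.span_induction with
  | mem x hx => exact hs x hx
  | zero => exact zero_pow hpp.out.ne_zero
  | add x y _ _ hx hy =>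
    obtain ⟨r, hr⟩ := (Commute.all x y).exists_add_pow_prime_eq hpp.out
    rw [hr, hx, hy, hp]; simp
  | smul r x _ hx => rw [smul_eq_mul, mul_pow, hx, mul_zero]

end N255.Dr
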